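import Mathlib
import Vale.Agent.P327.Final
import Vale.Agent.P327.Fusion

/-!
P327: the Turing degrees are rigid.
-/

namespace Vale.Agent.Results.P327.Rigidity

/-- Every automorphism of the Turing degrees of sets is the identity. -/
theorem result :
    ∀ π : {d : TuringDegree // ∃ x : ℕ → Bool,
        d = toAntisymmetrization TuringReducible (fun n => Part.some (x n).toNat)} ≃o
      {d : TuringDegree // ∃ x : ℕ → Bool,
        d = toAntisymmetrization TuringReducible (fun n => Part.some (x n).toNat)},
      π = OrderIso.refl _ :=
  fun π => Vale.Agent.P327.Deg.automorphism_eq_refl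
    (fun _ h => Vale.Agent.P327.Deg.genericallyBorel h) π

end Vale.Agent.Results.P327.Rigidity
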